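import Vale.Agent.P181.SZ.Spec2

set_option autoImplicit false

/-! # P181, SZ N4c: the choice of the marks -/

namespace Vale.Agent.P181.SZN4c

open Vale.Agent.P181.SZ (mkc)

lemma mkc_eq (x t : ℕ) : mkc x t = t * (2 * x + t + 1) := by
  induction t with
  | zero => simp [mkc]
  | succ t ih =>
    have h : mkc x (t + 1) = mkc x t + (2 * x + 2 * t + 2) := by
      unfold mkc
      rw [Finset.sum_range_succ]
    rw [h, ih]
    ring

/-- The greatest number of marks: `t` with `mkc x t ≤ a < mkc x (t + 1)`. -/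
lemma exists_t (x a : ℕ) (h : 4 * x + 6 ≤ a) :
    ∃ t, 2 ≤ t ∧ t * t ≤ a ∧ mkc x t ≤ a ∧ a ≤ mkc x t + (2 * x + 2 * t + 1) := by
  classical
  set P : ℕ → Prop := fun t => t * (2 * x + t + 1) ≤ a with hP
  set t := Nat.findGreatest P a with ht
  have h2 : P 2 := by
    show 2 * (2 * x + 2 + 1) ≤ a
    omega
  have h2t : 2 ≤ t := Nat.le_findGreatest (by omega) h2
  have hPt : P t := Nat.findGreatest_spec (P := P) (m := 2) (by omega) h2
  have hle : t * (2 * x + t + 1) ≤ a := hPt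
  have hgt : a < (t + 1) * (2 * x + (t + 1) + 1) := by
    by_contra hc
    have hc' : P (t + 1) := not_lt.1 hc
    have h3 : t + 1 ≤ a := by
      have h4 : t + 1 ≤ (t + 1) * (2 * x + (t + 1) + 1) := Nat.le_mul_of_pos_right _ (by omega)
      exact h4.trans hc'
    have h5 : t + 1 ≤ t := Nat.le_findGreatest h3 hc'
    omega
  refine ⟨t, h2t, ?_, ?_, ?_⟩
  · exact (Nat.mul_le_mul_left t (by omega)).trans hle
  · rw [mkc_eq]
    exact hle
  · rw [mkc_eq]
    have h6 : (t + 1) * (2 * x + (t + 1) + 1) = t * (2 * x + t + 1) + (2 * x + 2 * t + 2) := by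
      ring
    omega

theorem marks {R X Z w a r c : ℕ} (hR : 3 ≤ R) (hX : 10 ^ 6 * R ^ 4 ≤ X) (hXZ : X ^ 20 ≤ Z)
    (hZw : Z ^ 2 ≤ w) (hwZ : w ≤ 2 * Z ^ 2) (hc : 2 * c ≤ w) (hXa : X * a ≤ c) (hZa : Z ≤ a)
    (hr : r + 2 ≤ R) :
    ∃ t, 2 ≤ t ∧ t * t ≤ a ∧ mkc (Z / X ^ 5) t ≤ a ∧
      (∀ y, y ≤ 2 * (Z / X ^ 5) + 2 * t → ∀ s,
        w ≤ (r + 1) * mkc (Z / X ^ 5) t + 2 * (Z / X ^ 5) * s → y + a + 2 ≤ mkc (Z / X ^ 5) t + s) ∧
      (w / (Z / X ^ 5) + 1) + 1 + r * t ≤ Z * X ^ 8 := by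
  -- sizes of the numbers
  have hR4 : R ≤ R ^ 4 := Nat.le_self_pow (by norm_num) R
  have hRX : 1000 * R ≤ X := by omega
  have hX3 : 3000 ≤ X := by omega
  have hX0 : 0 < X := by omega
  have hX5 : X ≤ X ^ 5 := Nat.le_self_pow (by norm_num) X
  have hX5pos : 0 < X ^ 5 := by positivity
  have hX520 : X ^ 5 ≤ X ^ 20 := Nat.pow_le_pow_right hX0 (by norm_num)
  set x := Z / X ^ 5 with hx
  have hx1 : 1 ≤ x := (Nat.one_le_div_iff hX5pos).2 (hX520.trans hXZ)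
  have hxZ : x * X ^ 5 ≤ Z := Nat.div_mul_le_self Z (X ^ 5)
  have hxZ2 : Z < (x + 1) * X ^ 5 := by
    have h := Nat.lt_div_mul_add (a := Z) hX5pos
    rw [← hx] at h
    calc Z < x * X ^ 5 + X ^ 5 := h
      _ = (x + 1) * X ^ 5 := by ring
  have hxZ3 : Z ≤ 2 * (x * X ^ 5) := by
    have h : (x + 1) * X ^ 5 ≤ (2 * x) * X ^ 5 := Nat.mul_le_mul_right _ (by omega)
    calc Z ≤ (x + 1) * X ^ 5 := hxZ2.le
      _ ≤ (2 * x) * X ^ 5 := h
      _ = 2 * (x * X ^ 5) := by ring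
  have h3000 : 3000 * x ≤ Z := by
    calc 3000 * x ≤ X ^ 5 * x := Nat.mul_le_mul_right _ (hX3.trans hX5)
      _ = x * X ^ 5 := by ring
      _ ≤ Z := hxZ
  have hZ3 : 3000 ≤ Z := hX3.trans ((Nat.le_self_pow (by norm_num) X).trans hXZ)
  obtain ⟨t, ht2, htt, hma, ham⟩ := exists_t x a (by omega)
  -- `X * a ≤ Z ^ 2` and `t ≤ Z`
  have hXaw : 2 * (X * a) ≤ w := (Nat.mul_le_mul_left 2 hXa).trans hc
  have hXaZ : X * a ≤ Z * Z := by
    have : Z ^ 2 = Z * Z := by ring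
    omega
  have haZ : a ≤ Z * Z := (Nat.le_mul_of_pos_left a hX0).trans hXaZ
  have htZ : t ≤ Z := by
    by_contra h
    have h' : Z + 1 ≤ t := by omega
    have h1 : (Z + 1) * (Z + 1) ≤ t * t := Nat.mul_le_mul h' h'
    have h2 : (Z + 1) * (Z + 1) = Z * Z + 2 * Z + 1 := by ring
    omega
  refine ⟨t, ht2, htt, hma, fun y hy s hs => ?_, ?_⟩
  · -- `4 x + 4 t + 3 ≤ s`
    have hs' : 4 * x + 4 * t + 3 ≤ s := by
      by_contra hcon
      have hs1 : s ≤ 4 * x + 4 * t + 2 := by omega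
      have h1 : s ≤ 10 * Z := by omega
      have h2 : 2 * x * s ≤ 20 * (x * Z) := by
        calc 2 * x * s ≤ 2 * x * (10 * Z) := Nat.mul_le_mul_left _ h1
          _ = 20 * (x * Z) := by ring
      have h3 : 100 * (20 * (x * Z)) ≤ w := by
        calc 100 * (20 * (x * Z)) = (2000 * x) * Z := by ring
          _ ≤ Z * Z := Nat.mul_le_mul_right _ (by omega)
          _ = Z ^ 2 := by ring
          _ ≤ w := hZw
      have h4 : (r + 1) * mkc x t ≤ R * a := Nat.mul_le_mul (by omega) hma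
      have h5 : 1000 * (R * a) ≤ X * a := by
        calc 1000 * (R * a) = (1000 * R) * a := by ring
          _ ≤ X * a := Nat.mul_le_mul_right _ hRX
      have h6 : 0 < w := lt_of_lt_of_le (by positivity) hZw
      omega
    omega
  · have hw1 : w / x ≤ 4 * (Z * X ^ 5) := by
      rw [Nat.div_le_iff_le_mul_add_pred (by omega)]
      have h1 : 2 * Z ^ 2 ≤ x * (4 * (Z * X ^ 5)) := by
        calc 2 * Z ^ 2 = 2 * Z * Z := by ring
          _ ≤ 2 * Z * (2 * (x * X ^ 5)) := Nat.mul_le_mul_left _ hxZ3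
          _ = x * (4 * (Z * X ^ 5)) := by ring
      omega
    have hrt : r * t ≤ X * Z := Nat.mul_le_mul (by omega) htZ
    have h8 : 8 * (Z * X ^ 5) ≤ Z * X ^ 8 := by
      calc 8 * (Z * X ^ 5) = Z * X ^ 5 * 8 := by ring
        _ ≤ Z * X ^ 5 * X ^ 3 := Nat.mul_le_mul_left _
            ((show 8 ≤ X by omega).trans (Nat.le_self_pow (by norm_num) X))
        _ = Z * X ^ 8 := by ring
    have h9 : X * Z ≤ Z * X ^ 5 := by
      calc X * Z ≤ X ^ 5 * Z := Nat.mul_le_mul_right _ hX5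
        _ = Z * X ^ 5 := by ring
    have h10 : 2 ≤ Z * X ^ 5 := by
      calc 2 ≤ X * Z := by
            calc 2 ≤ Z := by omega
              _ ≤ X * Z := Nat.le_mul_of_pos_left Z hX0
        _ ≤ Z * X ^ 5 := h9
    omega
end Vale.Agent.P181.SZN4c
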