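import Mathlib

set_option autoImplicit false

/-! # P181, SZ N4: two number blocks -/

namespace Vale.Agent.P181.SZN4c

/-- The product of the two factors (rows one and two) is large. -/
theorem prod_big {R X Z u v : ℕ} (hR : 3 ≤ R) (hX : 10 ^ 6 * R ^ 4 ≤ X) (hXZ : X ^ 20 ≤ Z)
    (hu : Z ^ 2 ≤ 4 * R * u) (hv : Z * X ^ 14 ≤ 2 * v) :
    729 * (Z * X ^ 3) < (min (u / (32 * R ^ 2 * (Z * X ^ 3))) (Z / X ^ 5 / (256 * R ^ 2)) + 1) *
      (min (v / (32 * R ^ 2 * (Z * X ^ 3))) (Z / X ^ 5 / (256 * R ^ 2)) + 1) := by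
  have hR4 : R ≤ R ^ 4 := Nat.le_self_pow (by norm_num) R
  have hRX : 1000 * R ≤ X := by omega
  have hX3 : 3000 ≤ X := by omega
  have hX0 : 0 < X := by omega
  have hX20 : 0 < X ^ 20 := by positivity
  have hZ0 : 0 < Z := lt_of_lt_of_le hX20 hXZ
  have hR2 : 0 < R ^ 2 := by positivity
  set k := Z / X ^ 5 with hk
  have hk1 : Z < (k + 1) * X ^ 5 := by
    have h := Nat.lt_div_mul_add (a := Z) (b := X ^ 5) (by positivity)
    rw [← hk] at h
    calc Z < k * X ^ 5 + X ^ 5 := h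
      _ = (k + 1) * X ^ 5 := by ring
  -- the second entry of the minimum
  have hq : Z < (k / (256 * R ^ 2) + 1) * (256 * R ^ 2 * X ^ 5) := by
    have h := Nat.lt_div_mul_add (a := k) (b := 256 * R ^ 2) (by positivity)
    have h' : k + 1 ≤ (k / (256 * R ^ 2) + 1) * (256 * R ^ 2) := by
      have : (k / (256 * R ^ 2) + 1) * (256 * R ^ 2) =
        k / (256 * R ^ 2) * (256 * R ^ 2) + 256 * R ^ 2 := by ring
      omega
    calc Z < (k + 1) * X ^ 5 := hk1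
      _ ≤ ((k / (256 * R ^ 2) + 1) * (256 * R ^ 2)) * X ^ 5 := Nat.mul_le_mul_right _ h'
      _ = _ := by ring
  -- first factor
  have hF1 : Z < (min (u / (32 * R ^ 2 * (Z * X ^ 3))) (k / (256 * R ^ 2)) + 1) *
      (256 * R ^ 2 * X ^ 5) := by
    rcases le_total (u / (32 * R ^ 2 * (Z * X ^ 3))) (k / (256 * R ^ 2)) with h | h
    · rw [min_eq_left h]
      have h1 := Nat.lt_div_mul_add (a := u) (b := 32 * R ^ 2 * (Z * X ^ 3)) (by positivity)
      have h2 : u < (u / (32 * R ^ 2 * (Z * X ^ 3)) + 1) * (32 * R ^ 2 * (Z * X ^ 3)) := by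
        calc u < _ := h1
          _ = _ := by ring
      set q := u / (32 * R ^ 2 * (Z * X ^ 3)) with hq1
      have h3 : Z * Z < Z * ((q + 1) * (128 * R ^ 3 * X ^ 3)) := by
        calc Z * Z = Z ^ 2 := by ring
          _ ≤ 4 * R * u := hu
          _ < 4 * R * ((q + 1) * (32 * R ^ 2 * (Z * X ^ 3))) :=
            Nat.mul_lt_mul_of_pos_left h2 (by omega)
          _ = Z * ((q + 1) * (128 * R ^ 3 * X ^ 3)) := by ring
      have h4 : Z < (q + 1) * (128 * R ^ 3 * X ^ 3) := Nat.lt_of_mul_lt_mul_left h3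
      refine h4.trans_le (Nat.mul_le_mul_left _ ?_)
      calc 128 * R ^ 3 * X ^ 3 = 128 * R ^ 2 * X ^ 3 * R := by ring
        _ ≤ 128 * R ^ 2 * X ^ 3 * (X * X) := Nat.mul_le_mul_left _ (by nlinarith)
        _ ≤ 256 * R ^ 2 * X ^ 5 := by nlinarith [Nat.zero_le (R ^ 2 * X ^ 5),
            (by ring : 128 * R ^ 2 * X ^ 3 * (X * X) = 128 * (R ^ 2 * X ^ 5))]
    · rw [min_eq_right h]
      exact hq
  -- second factor
  have hF2 : X ^ 11 < (min (v / (32 * R ^ 2 * (Z * X ^ 3))) (k / (256 * R ^ 2)) + 1) *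
      (64 * R ^ 2) := by
    rcases le_total (v / (32 * R ^ 2 * (Z * X ^ 3))) (k / (256 * R ^ 2)) with h | h
    · rw [min_eq_left h]
      have h1 := Nat.lt_div_mul_add (a := v) (b := 32 * R ^ 2 * (Z * X ^ 3)) (by positivity)
      have h2 : v < (v / (32 * R ^ 2 * (Z * X ^ 3)) + 1) * (32 * R ^ 2 * (Z * X ^ 3)) := by
        calc v < _ := h1
          _ = _ := by ring
      set q := v / (32 * R ^ 2 * (Z * X ^ 3)) with hq1
      have h3 : (Z * X ^ 3) * X ^ 11 < (Z * X ^ 3) * ((q + 1) * (64 * R ^ 2)) := by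
        calc (Z * X ^ 3) * X ^ 11 = Z * X ^ 14 := by ring
          _ ≤ 2 * v := hv
          _ < 2 * ((q + 1) * (32 * R ^ 2 * (Z * X ^ 3))) :=
            Nat.mul_lt_mul_of_pos_left h2 (by omega)
          _ = (Z * X ^ 3) * ((q + 1) * (64 * R ^ 2)) := by ring
      exact Nat.lt_of_mul_lt_mul_left h3
    · rw [min_eq_right h]
      have h1 : X ^ 5 * (4 * X ^ 11) < X ^ 5 * (4 * ((k / (256 * R ^ 2) + 1) * (64 * R ^ 2))) := by
        calc X ^ 5 * (4 * X ^ 11) = 4 * X ^ 16 := by ring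
          _ ≤ X * X ^ 16 := Nat.mul_le_mul_right _ (by omega)
          _ = X ^ 17 := by ring
          _ ≤ X ^ 20 := Nat.pow_le_pow_right hX0 (by norm_num)
          _ ≤ Z := hXZ
          _ < _ := hq
          _ = X ^ 5 * (4 * ((k / (256 * R ^ 2) + 1) * (64 * R ^ 2))) := by ring
      have h2 := Nat.lt_of_mul_lt_mul_left h1
      omega
  set F1 := min (u / (32 * R ^ 2 * (Z * X ^ 3))) (k / (256 * R ^ 2)) + 1
  set F2 := min (v / (32 * R ^ 2 * (Z * X ^ 3))) (k / (256 * R ^ 2)) + 1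
  have h1 : Z * X ^ 11 < (F1 * (256 * R ^ 2 * X ^ 5)) * (F2 * (64 * R ^ 2)) :=
    Nat.mul_lt_mul'' hF1 hF2
  have h2 : (X ^ 5 * (16384 * R ^ 4)) * (729 * (Z * X ^ 3)) < (X ^ 5 * (16384 * R ^ 4)) * (F1 * F2) := by
    calc (X ^ 5 * (16384 * R ^ 4)) * (729 * (Z * X ^ 3)) = (11943936 * R ^ 4) * (Z * X ^ 8) := by
          ring
      _ ≤ (X * X) * (Z * X ^ 8) := Nat.mul_le_mul_right _ (by nlinarith)
      _ ≤ X * ((X * X) * (Z * X ^ 8)) := Nat.le_mul_of_pos_left _ hX0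
      _ = Z * X ^ 11 := by ring
      _ < _ := h1
      _ = (X ^ 5 * (16384 * R ^ 4)) * (F1 * F2) := by ring
  exact Nat.lt_of_mul_lt_mul_left h2

/-- The exponential inequality. -/
theorem exp_big {R X Z w J a0 b0 : ℕ} (hJ0 : 1 ≤ J) (hJ : J ≤ Z * X ^ 2) (hR : 1 ≤ R)
    (hw : 4 ≤ w) (ha0 : a0 ≤ w) (hab : a0 * b0 ≤ 4 * w + 3)
    (hlog : 100 * (R : ℝ) * Real.log (w + 1) ≤ X) :
    ((2 * (w + 1) ^ (R * J) : ℕ) : ℝ) * (((a0 * b0 : ℕ) : ℝ) + 1) ^ (J * R) *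
      ((a0 : ℝ) + 1) ^ J ≤ Real.exp ((Z * X ^ 3 : ℕ) : ℝ) := by
  have h1 : 2 * (w + 1) ^ (R * J) * (a0 * b0 + 1) ^ (J * R) * (a0 + 1) ^ J ≤
      (w + 1) ^ (5 * (R * J)) := by
    have e1 : 2 ≤ (w + 1) ^ (R * J) := by
      calc 2 ≤ w + 1 := by omega
        _ ≤ (w + 1) ^ (R * J) := Nat.le_self_pow (Nat.mul_ne_zero (by omega) (by omega)) _
    have e2 : (a0 * b0 + 1) ^ (J * R) ≤ (w + 1) ^ (2 * (R * J)) := by
      calc (a0 * b0 + 1) ^ (J * R) ≤ ((w + 1) ^ 2) ^ (J * R) :=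
            Nat.pow_le_pow_left (by nlinarith) _
        _ = (w + 1) ^ (2 * (R * J)) := by
          rw [← pow_mul]
          congr 1
          ring
    have e3 : (a0 + 1) ^ J ≤ (w + 1) ^ (R * J) := by
      calc (a0 + 1) ^ J ≤ (w + 1) ^ J := Nat.pow_le_pow_left (by omega) _
        _ ≤ (w + 1) ^ (R * J) := Nat.pow_le_pow_right (by omega) (Nat.le_mul_of_pos_left _ hR)
    calc 2 * (w + 1) ^ (R * J) * (a0 * b0 + 1) ^ (J * R) * (a0 + 1) ^ J
        ≤ (w + 1) ^ (R * J) * (w + 1) ^ (R * J) * (w + 1) ^ (2 * (R * J)) *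
          (w + 1) ^ (R * J) := by gcongr
      _ = (w + 1) ^ (5 * (R * J)) := by
        rw [← pow_add, ← pow_add, ← pow_add]
        congr 1
        ring
  have h2 : ((w : ℝ) + 1) ^ (5 * (R * J)) ≤ Real.exp ((Z * X ^ 3 : ℕ) : ℝ) := by
    have hw0 : (0 : ℝ) < (w : ℝ) + 1 := by positivity
    have h3 : ((w : ℝ) + 1) ^ (5 * (R * J)) =
        Real.exp ((5 * (R * J) : ℕ) * Real.log ((w : ℝ) + 1)) := by
      rw [Real.exp_nat_mul, Real.exp_log hw0]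
    rw [h3]
    apply Real.exp_le_exp.2
    have h4 : 0 ≤ Real.log ((w : ℝ) + 1) := Real.log_nonneg (by linarith [(Nat.cast_nonneg w : (0:ℝ) ≤ w)])
    have h5 : ((5 * (R * J) : ℕ) : ℝ) * Real.log ((w : ℝ) + 1) =
        (J : ℝ) * (100 * (R : ℝ) * Real.log ((w : ℝ) + 1)) / 20 := by
      push_cast
      ring
    rw [h5]
    have h6 : (J : ℝ) * (100 * (R : ℝ) * Real.log ((w : ℝ) + 1)) ≤ ((Z * X ^ 2 : ℕ) : ℝ) * X :=
      mul_le_mul (by exact_mod_cast hJ) hlog (by positivity) (by positivity)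
    have h7 : ((Z * X ^ 2 : ℕ) : ℝ) * X = ((Z * X ^ 3 : ℕ) : ℝ) := by
      push_cast
      ring
    have h8 : (0 : ℝ) ≤ ((Z * X ^ 3 : ℕ) : ℝ) := Nat.cast_nonneg _
    rw [h7] at h6
    linarith
  refine le_trans ?_ h2
  exact_mod_cast h1
end Vale.Agent.P181.SZN4c
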